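import Vale.Agent.P025.R2.H613.Three
import Vale.Agent.P025.R2.H352.MainG

/-!
# P025 G-MAIN: the row Three from the row Three' (helper613)
-/

universe u

namespace P025H613

theorem three_of_three' {C : Type u} [NontriviallyNormedField C] [IsUltrametricDist C]
    [CompleteSpace C] [IsAlgClosed C] [CharZero C] (h : P025H352.Three' C) :
    P025H352.Three C := by
  intro K _ _ _ _ _ _ m l hl hlm hR
  obtain ⟨r0, Nm, hr0, h1⟩ := h K m l hl hlm hR
  refine ⟨r0, Nm, hr0, fun q hq c hc h' hh0 hh => ?_⟩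
  obtain ⟨Z, W, _, _, _, _, _, _, _, _, _, _, _, _, _, _, _, _, hcov, j, hj, y, hy, hd, w, hw⟩ :=
    h1 q hq c hc h' hh0 hh
  exact three_step hcov c j hj hq hy hd w hw

end P025H613
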